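import Mathlib

/-!
Direct finiteness of group algebras: only the support of one of the two factors matters.
-/

namespace Vale.Agent.Results.P194.OneSidedSupport

open MonoidAlgebra

variable {K G : Type*} [Field K] [Group G]

/-- pull back to the subgroup `H` -/
noncomputable def E (H : Subgroup G) : MonoidAlgebra K G →+ MonoidAlgebra K H :=
  comapDomainAddMonoidHom (R := K) H.subtype Subtype.val_injective

/-- the inclusion `K[H] → K[G]` -/
noncomputable def inc (H : Subgroup G) : MonoidAlgebra K H →+* MonoidAlgebra K G :=
  mapDomainRingHom K H.subtype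

theorem key (H : Subgroup G) (x : MonoidAlgebra K H) (b : MonoidAlgebra K G) :
    E H (inc H x * b) = x * E H b := by
  induction x using MonoidAlgebra.induction_linear with
  | zero => simp
  | add x y hx hy => rw [map_add, add_mul, map_add, hx, hy, add_mul]
  | single h k =>
    induction b using MonoidAlgebra.induction_linear with
    | zero => simp
    | add x y hx hy => rw [mul_add, map_add, hx, hy, map_add, mul_add]
    | single g c =>
      have e1 : inc H (single h k) = single (h : G) k := by
        unfold inc
        simp
      rw [e1, single_mul_single]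
      by_cases hg : g ∈ H
      · have e2 : E H (single g c : MonoidAlgebra K G) = single (⟨g, hg⟩ : H) c :=
          comapDomain_single_map (R := K) H.subtype Subtype.val_injective (⟨g, hg⟩ : H) c
        have e3 : E H (single ((h : G) * g) (k * c) : MonoidAlgebra K G) =
            single (h * ⟨g, hg⟩ : H) (k * c) :=
          comapDomain_single_map (R := K) H.subtype Subtype.val_injective (h * ⟨g, hg⟩ : H) (k * c)
        rw [e2, e3, single_mul_single]
      · have e2 : E H (single g c : MonoidAlgebra K G) = 0 :=
          comapDomain_single_of_not_mem_range (by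
            rintro ⟨y, rfl⟩
            exact hg y.2) Subtype.val_injective
        have e3 : E H (single ((h : G) * g) (k * c) : MonoidAlgebra K G) = 0 :=
          comapDomain_single_of_not_mem_range (by
            rintro ⟨y, hy⟩
            apply hg
            have : g = (h : G)⁻¹ * y := by
              rw [show (y : G) = (h : G) * g from hy]
              group
            rw [this]
            exact H.mul_mem (H.inv_mem h.2) y.2) Subtype.val_injective
        rw [e2, e3, mul_zero]

theorem keyR (H : Subgroup G) (x : MonoidAlgebra K H) (b : MonoidAlgebra K G) :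
    E H (b * inc H x) = E H b * x := by
  induction x using MonoidAlgebra.induction_linear with
  | zero => simp
  | add x y hx hy => rw [map_add, mul_add, map_add, hx, hy, mul_add]
  | single h k =>
    induction b using MonoidAlgebra.induction_linear with
    | zero => simp
    | add x y hx hy => rw [add_mul, map_add, hx, hy, map_add, add_mul]
    | single g c =>
      have e1 : inc H (single h k) = single (h : G) k := by
        unfold inc
        simp
      rw [e1, single_mul_single]
      by_cases hg : g ∈ H
      · have e2 : E H (single g c : MonoidAlgebra K G) = single (⟨g, hg⟩ : H) c :=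
          comapDomain_single_map (R := K) H.subtype Subtype.val_injective (⟨g, hg⟩ : H) c
        have e3 : E H (single (g * (h : G)) (c * k) : MonoidAlgebra K G) =
            single (⟨g, hg⟩ * h : H) (c * k) :=
          comapDomain_single_map (R := K) H.subtype Subtype.val_injective (⟨g, hg⟩ * h : H) (c * k)
        rw [e2, e3, single_mul_single]
      · have e2 : E H (single g c : MonoidAlgebra K G) = 0 :=
          comapDomain_single_of_not_mem_range (by
            rintro ⟨y, rfl⟩
            exact hg y.2) Subtype.val_injective
        have e3 : E H (single (g * (h : G)) (c * k) : MonoidAlgebra K G) = 0 :=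
          comapDomain_single_of_not_mem_range (by
            rintro ⟨y, hy⟩
            apply hg
            have : g = y * (h : G)⁻¹ := by
              rw [show (y : G) = g * (h : G) from hy]
              group
            rw [this]
            exact H.mul_mem y.2 (H.inv_mem h.2)) Subtype.val_injective
        rw [e2, e3, zero_mul]

/-- one-sided support criterion for square matrices over a group algebra -/
theorem matrix {n : Type*} [Fintype n] [DecidableEq n] (H : Subgroup G)
    (hH : ∀ x y : Matrix n n (MonoidAlgebra K H), x * y = 1 → y * x = 1)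
    (a b : Matrix n n (MonoidAlgebra K G))
    (ha : ∀ i j, ∀ g ∈ (a i j).coeff.support, g ∈ H) (hab : a * b = 1) : b * a = 1 := by
  let X : Matrix n n (MonoidAlgebra K H) := a.map (E H)
  let Y : Matrix n n (MonoidAlgebra K H) := b.map (E H)
  have hX : X.map (inc H) = a := by
    refine Matrix.ext fun i j => ?_
    exact mapDomain_comapDomain (R := K) (f := H.subtype) (x := a i j) (by
      intro g hg
      exact ⟨⟨g, ha i j g hg⟩, rfl⟩) Subtype.val_injective
  have hE1 : E H (1 : MonoidAlgebra K G) = 1 :=
    comapDomain_single_map (R := K) H.subtype Subtype.val_injective (1 : H) 1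
  have hXY : X * Y = 1 := by
    have h1 : (a * b).map (E H) = X * Y := by
      refine Matrix.ext fun i j => ?_
      rw [Matrix.map_apply, Matrix.mul_apply, Matrix.mul_apply, map_sum]
      refine Finset.sum_congr rfl fun l _ => ?_
      have h2 : a i l = inc H (X i l) := by
        conv_lhs => rw [← hX]
        rfl
      rw [h2, key]
      rfl
    rw [← h1, hab]
    refine Matrix.ext fun i j => ?_
    rw [Matrix.map_apply]
    by_cases hij : i = j
    · subst hij
      rw [Matrix.one_apply_eq, Matrix.one_apply_eq, hE1]
    · rw [Matrix.one_apply_ne hij, Matrix.one_apply_ne hij, map_zero]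
  have hYX := hH X Y hXY
  have h3 : (Y.map (inc H)) * a = 1 := by
    conv_lhs => rw [← hX]
    rw [← Matrix.map_mul, hYX]
    exact Matrix.map_one _ (map_zero _) (map_one _)
  have h4 : b = Y.map (inc H) := by
    calc b = (Y.map (inc H) * a) * b := by rw [h3, one_mul]
      _ = Y.map (inc H) := by rw [mul_assoc, hab, mul_one]
  rw [h4, h3]

/-- one-sided support criterion, support in `H` -/
theorem core (H : Subgroup G) (hH : ∀ x y : MonoidAlgebra K H, x * y = 1 → y * x = 1)
    (a b : MonoidAlgebra K G) (ha : ∀ x ∈ a.coeff.support, x ∈ H) (hab : a * b = 1) :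
    b * a = 1 := by
  have hX : inc H (E H a) = a :=
    mapDomain_comapDomain (R := K) (f := H.subtype) (x := a) (by
      intro g hg
      exact ⟨⟨g, ha g hg⟩, rfl⟩) Subtype.val_injective
  have hE1 : E H (1 : MonoidAlgebra K G) = 1 :=
    comapDomain_single_map (R := K) H.subtype Subtype.val_injective (1 : H) 1
  have hXY : E H a * E H b = 1 := by rw [← key, hX, hab, hE1]
  have h3 : inc H (E H b) * a = 1 := by
    conv_lhs => rw [← hX]
    rw [← map_mul, hH _ _ hXY, map_one]
  have h4 : b = inc H (E H b) := by
    calc b = (inc H (E H b) * a) * b := by rw [h3, one_mul]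
      _ = inc H (E H b) := by rw [mul_assoc, hab, mul_one]
  rw [h4, h3]

/-- one-sided support criterion, support of the right factor in `H` -/
theorem coreR (H : Subgroup G) (hH : ∀ x y : MonoidAlgebra K H, x * y = 1 → y * x = 1)
    (a b : MonoidAlgebra K G) (hb : ∀ x ∈ b.coeff.support, x ∈ H) (hab : a * b = 1) :
    b * a = 1 := by
  have hX : inc H (E H b) = b :=
    mapDomain_comapDomain (R := K) (f := H.subtype) (x := b) (by
      intro g hg
      exact ⟨⟨g, hb g hg⟩, rfl⟩) Subtype.val_injective
  have hE1 : E H (1 : MonoidAlgebra K G) = 1 :=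
    comapDomain_single_map (R := K) H.subtype Subtype.val_injective (1 : H) 1
  have hXY : E H a * E H b = 1 := by rw [← keyR, hX, hab, hE1]
  have h3 : b * inc H (E H a) = 1 := by
    conv_lhs => rw [← hX]
    rw [← map_mul, hH _ _ hXY, map_one]
  have h4 : a = inc H (E H a) := by
    calc a = a * (b * inc H (E H a)) := by rw [h3, mul_one]
      _ = inc H (E H a) := by rw [← mul_assoc, hab, one_mul]
  rw [h4, h3]

theorem comm_of_comm {H : Type*} [Group H] (hc : ∀ u v : H, u * v = v * u)
    (x y : MonoidAlgebra K H) : x * y = y * x := by
  induction x using MonoidAlgebra.induction_linear with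
  | zero => simp
  | add x x' hx hx' => rw [add_mul, mul_add, hx, hx']
  | single u k =>
    induction y using MonoidAlgebra.induction_linear with
    | zero => simp
    | add y y' hy hy' => rw [add_mul, mul_add, hy, hy']
    | single v l => rw [single_mul_single, single_mul_single, hc u v, mul_comm k l]

/-- one-sided support criterion, support in a left coset -/
theorem scalar (H : Subgroup G) (hH : ∀ x y : MonoidAlgebra K H, x * y = 1 → y * x = 1)
    (a b : MonoidAlgebra K G) (g : G) (ha : ∀ x ∈ a.coeff.support, g⁻¹ * x ∈ H) (hab : a * b = 1) :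
    b * a = 1 := by
  let a' : MonoidAlgebra K G := single g⁻¹ 1 * a
  let b' : MonoidAlgebra K G := b * single g 1
  have hg1 : (single g⁻¹ 1 : MonoidAlgebra K G) * single g 1 = 1 := by
    rw [single_mul_single, inv_mul_cancel, one_mul, one_def]
  have hg2 : (single g 1 : MonoidAlgebra K G) * single g⁻¹ 1 = 1 := by
    rw [single_mul_single, mul_inv_cancel, one_mul, one_def]
  have h1 : a' * b' = 1 := by
    calc a' * b' = single g⁻¹ 1 * (a * b) * single g 1 := by simp only [a', b', mul_assoc]
      _ = 1 := by rw [hab, mul_one, hg1]
  have ha' : ∀ x ∈ a'.coeff.support, x ∈ H := by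
    intro x hx
    rw [Finsupp.mem_support_iff] at hx
    have h2 : a'.coeff x = a.coeff (g * x) := by
      simp only [a']
      rw [a.coeff_single_mul_eq_mul_coeff (g * x) (fun m' _ => ⟨fun h => by rw [← h]; group,
        fun h => by rw [h]; group⟩), one_mul]
    rw [h2] at hx
    have h3 := ha (g * x) (Finsupp.mem_support_iff.2 hx)
    simpa using h3
  have h2 : b' * a' = 1 := core H hH a' b' ha' h1
  calc b * a = b * (single g 1 * single g⁻¹ 1) * a := by rw [hg2, mul_one]
    _ = b' * a' := by simp only [a', b', mul_assoc]
    _ = 1 := h2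

theorem supp_shift {H : Subgroup G} {a : MonoidAlgebra K G} {g : G}
    (ha : ∀ x ∈ a.coeff.support, g⁻¹ * x ∈ H) :
    ∀ x ∈ (single g⁻¹ 1 * a : MonoidAlgebra K G).coeff.support, x ∈ H := by
  intro x hx
  rw [Finsupp.mem_support_iff] at hx
  rw [a.coeff_single_mul_eq_mul_coeff (g * x) (fun m' _ => ⟨fun h => by rw [← h]; group,
    fun h => by rw [h]; group⟩), one_mul] at hx
  simpa using ha (g * x) (Finsupp.mem_support_iff.2 hx)

/-- one-sided support criterion, support of the right factor in a left coset -/
theorem scalarR (H : Subgroup G) (hH : ∀ x y : MonoidAlgebra K H, x * y = 1 → y * x = 1)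
    (a b : MonoidAlgebra K G) (g : G) (hb : ∀ x ∈ b.coeff.support, g⁻¹ * x ∈ H) (hab : a * b = 1) :
    b * a = 1 := by
  have hg2 : (single g 1 : MonoidAlgebra K G) * single g⁻¹ 1 = 1 := by
    rw [single_mul_single, mul_inv_cancel, one_mul, one_def]
  have h1 : (a * single g 1) * (single g⁻¹ 1 * b) = 1 := by
    calc (a * single g 1) * (single g⁻¹ 1 * b) = a * (single g 1 * single g⁻¹ 1) * b := by
          simp only [mul_assoc]
      _ = 1 := by rw [hg2, mul_one, hab]
  have h2 := coreR H hH _ _ (supp_shift hb) h1
  calc b * a = (single g 1 * single g⁻¹ 1) * (b * a) * (single g 1 * single g⁻¹ 1) := by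
        rw [hg2, one_mul, mul_one]
    _ = single g 1 * ((single g⁻¹ 1 * b) * (a * single g 1)) * single g⁻¹ 1 := by
        simp only [mul_assoc]
    _ = 1 := by rw [h2, mul_one, hg2]

/-- if the translated support of one factor commutes, the two factors are inverse to each other -/
theorem abelian (a b c : MonoidAlgebra K G) (hc : c = a ∨ c = b)
    (hs : ∀ x ∈ c.coeff.support, ∀ y ∈ c.coeff.support, ∀ z ∈ c.coeff.support,
      (x⁻¹ * y) * (x⁻¹ * z) = (x⁻¹ * z) * (x⁻¹ * y)) (hab : a * b = 1) : b * a = 1 := by
  by_cases ha0 : c.coeff.support = ∅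
  · have h0 : c = 0 := by
      have h : c.coeff = 0 := Finsupp.support_eq_empty.1 ha0
      exact coeff_injective (by simpa using h)
    rcases hc with rfl | rfl
    · rw [h0, zero_mul] at hab
      rw [h0, mul_zero, hab]
    · rw [h0, mul_zero] at hab
      rw [h0, zero_mul, hab]
  · obtain ⟨g, hg⟩ := Finset.nonempty_iff_ne_empty.2 ha0
    let s : Set G := {t | ∃ y ∈ c.coeff.support, t = g⁻¹ * y}
    have hs : ∀ x ∈ s, ∀ y ∈ s, x * y = y * x := by
      rintro x ⟨y, hy, rfl⟩ x' ⟨z, hz, rfl⟩
      exact hs g hg y hy z hz
    have hcc := Subgroup.isMulCommutative_closure hs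
    have hcomm : ∀ u v : Subgroup.closure s, u * v = v * u := hcc.is_comm.comm
    have hsup : ∀ x ∈ c.coeff.support, g⁻¹ * x ∈ Subgroup.closure s := fun x hx =>
      Subgroup.subset_closure ⟨x, hx, rfl⟩
    rcases hc with rfl | rfl
    · exact scalar (Subgroup.closure s) (fun x y h => by rw [comm_of_comm hcomm y x, h])
        c b g hsup hab
    · exact scalarR (Subgroup.closure s) (fun x y h => by rw [comm_of_comm hcomm y x, h])
        a c g hsup hab

/-- Let `K` be a field, `G` any group and `a b = 1` in `K[G]`. If the support of `a` or the support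
of `b` lies in a left coset of a subgroup `H` for which `K[H]` is directly finite, then `b a = 1`;
this holds in particular if the quotients `x⁻¹ y` of one of the supports commute, and so whenever
one of the supports has at most two elements. The same for square matrices, if the entries of the
left factor are supported in `H` and `K[H]` is stably finite. -/
theorem result (K G : Type) [Field K] [Group G] :
    (∀ (H : Subgroup G), (∀ x y : MonoidAlgebra K H, x * y = 1 → y * x = 1) →
      ∀ (a b : MonoidAlgebra K G) (g : G), ((∀ x ∈ a.coeff.support, g⁻¹ * x ∈ H) ∨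
        (∀ x ∈ b.coeff.support, g⁻¹ * x ∈ H)) → a * b = 1 → b * a = 1) ∧
    (∀ (n : ℕ) (H : Subgroup G),
      (∀ x y : Matrix (Fin n) (Fin n) (MonoidAlgebra K H), x * y = 1 → y * x = 1) →
      ∀ a b : Matrix (Fin n) (Fin n) (MonoidAlgebra K G),
        (∀ i j, ∀ g ∈ (a i j).coeff.support, g ∈ H) → a * b = 1 → b * a = 1) ∧
    (∀ a b c : MonoidAlgebra K G, (c = a ∨ c = b) →
      (∀ x ∈ c.coeff.support, ∀ y ∈ c.coeff.support, ∀ z ∈ c.coeff.support,
        (x⁻¹ * y) * (x⁻¹ * z) = (x⁻¹ * z) * (x⁻¹ * y)) → a * b = 1 → b * a = 1) ∧
    (∀ a b : MonoidAlgebra K G, (a.coeff.support.card ≤ 2 ∨ b.coeff.support.card ≤ 2) →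
      a * b = 1 → b * a = 1) := by
  have hcard : ∀ c : MonoidAlgebra K G, c.coeff.support.card ≤ 2 →
      ∀ x ∈ c.coeff.support, ∀ y ∈ c.coeff.support, ∀ z ∈ c.coeff.support,
        (x⁻¹ * y) * (x⁻¹ * z) = (x⁻¹ * z) * (x⁻¹ * y) := by
    classical
    intro c hcard x hx y hy z hz
    by_cases hxy : x = y
    · rw [hxy]
      simp
    · by_cases hxz : x = z
      · rw [hxz]
        simp
      · have hyz : y = z := by
          by_contra hyz
          have h3 : ({x, y, z} : Finset G).card = 3 := Finset.card_eq_three.2
            ⟨x, y, z, hxy, hxz, hyz, rfl⟩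
          have h4 : ({x, y, z} : Finset G) ⊆ c.coeff.support := by
            intro t ht
            simp only [Finset.mem_insert, Finset.mem_singleton] at ht
            rcases ht with rfl | rfl | rfl <;> assumption
          have := Finset.card_le_card h4
          omega
        rw [hyz]
  refine ⟨fun H hH a b g h hab => ?_, fun n H hH a b ha hab => matrix H hH a b ha hab,
    fun a b c hc hs hab => abelian a b c hc hs hab, fun a b h hab => ?_⟩
  · rcases h with h | h
    · exact scalar H hH a b g h hab
    · exact scalarR H hH a b g h hab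
  · rcases h with h | h
    · exact abelian a b a (Or.inl rfl) (hcard a h) hab
    · exact abelian a b b (Or.inr rfl) (hcard b h) hab

end Vale.Agent.Results.P194.OneSidedSupport
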